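import Crest.Agent.X212.Gm56.Cur

/-!
# Row 212, GEO engine (helper43): the curvature of the determinant line with its potential

`cur_ac` is `Gm56.cur_ac` (helper56) with the explicit witness.
-/

set_option autoImplicit false
set_option linter.unusedSectionVars false

open Set Filter Topology Function
open scoped ContDiff Manifold InnerProductSpace Matrix
open Crest.Agent.R208.F (Ext)
open Crest.Agent.X212.An Crest.Agent.X212.Lab56 Crest.Agent.X212.Pj41
open Crest.Agent.X212.Sob92 hiding cK cK_sq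
open Crest.Agent.X212.Wz78 (CC Frm SA frm curv trE)
open Crest.Agent.X212.Line51 (rl iL Ln)
open Crest.Agent.X212.Num57 (k1 k2 fm1)
open Crest.Agent.X212.Dr59 (dM)
open Crest.Agent.X212.M (Mf)
open Crest.Agent.X212.Gm56

noncomputable section

namespace Crest.Agent.X212.Nrm43

variable {E : Type} [NormedAddCommGroup E] [NormedSpace ℝ E] [FiniteDimensional ℝ E]
  {HM : Type} [TopologicalSpace HM] {I : ModelWithCorners ℝ E HM} [I.Boundaryless]
  {M : Type} [TopologicalSpace M] [ChartedSpace HM M] [IsManifold I ∞ M]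
  {ι κ lam : Type} [Fintype ι] [Fintype κ] [Fintype lam] [DecidableEq ι] [DecidableEq κ]
  {m : C8 M ι κ} [MeasurableSpace E] [BorelSpace E] [MeasurableSpace M] {F : Fr I M ι}
  [BorelSpace M] [SecondCountableTopology M] [T2Space M] [SigmaCompactSpace M]

/-- the potential of a connection -/
def bA (m : C8 M ι κ) (A : ι → M → En (κ ⊕ κ)) (a : ι) (x : M) : ℝ :=
  -trE (iL κ * rl (m.p x) * A a x) / 4

/-- the determinant line with the connection induced by `A` -/
abbrev lA (F : Fr I M ι) (m : C8 M ι κ) (A : ι → M → En (κ ⊕ κ)) : Ln E M (κ × κ) :=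
  ⟨m.det, fm1 F (bA m A)⟩

theorem on_lA (h : m.On I (Met55.fP F.e) univ) {A : ι → M → En (κ ⊕ κ)} (hA : AC F m.re A) :
    (lA F m A).On I univ :=
  ⟨h.det.sm, h.det.prj, h.det.tr, fun x _ => Num57.smAt_fm1 F fun a =>
    (SA.clm trE (SA.mul (SA.mul contMDiffAt_const (hA.cc.sp x)) (hA.cc.sm a x))).neg.div_const _,
    fun x _ => Num57.deg_fm1 F _ x⟩

/-- **the curvature of the determinant line** -/
theorem cur_ac {B : Base M ι lam} (hB : B.OK I) (hP : F.P = B.P) (h : m.On I (Met55.fP F.e) univ)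
    {A : ι → M → En (κ ⊕ κ)} (hA : AC F m.re A) (a b : ι) (x : M) :
    k2 F ((lA F m A).F I) a b x = -trE (iL κ * rl (m.p x) * curv I F.e F.c A a b x) / 4 := by
  have kβ : ∀ a x, k1 F (fm1 F (bA m A)) a x = bA m A a x := fun a x => by
    simp only [Num57.k1_fm1, bA]
    conv_rhs => rw [← hA.cc.proj a x]
    simp only [Finset.mul_sum, mul_smul_comm, map_sum, map_smul, smul_eq_mul, neg_div, Finset.sum_div,
      mul_neg, Finset.sum_neg_distrib, mul_div_assoc]
  obtain ⟨V, s, α, h1, h2, -, h4, h5, h6, h7⟩ := (on_lA h hA).exists_pot isOpen_univ (mem_univ x)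
  have i := ci_unc (h.bar.mono (subset_univ V)) (h.mono (subset_univ V)) h4.toUni
  have ev := h1.eventually_mem h2
  have mb : m.bar.re.On I B.P univ := hP ▸ on_re h.bar
  have m0 := on_re h
  have ep : ∀ y, m.bar.re.p y = cK κ * rl (m.p y) * cK κ := fun y => rl_cj _
  have eρ : ∀ a y, m.bar.re.ρ a y = cK κ * rl (m.ρ a y) * cK κ := fun a y => rl_cj _
  set u : M → En (κ ⊕ κ) := fun y => rl (unc s y) with hu
  have uu : ∀ y ∈ V, trn (u y) * u y = cK κ * rl (m.p y) * cK κ := fun y hy =>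
    (i.re hy).2.1.trans (ep y)
  have uu' : ∀ y ∈ V, u y * trn (u y) = rl (m.p y) := fun y hy => (i.re hy).2.2.1
  have uJ : ∀ y ∈ V, u y * iL κ = iL κ * u y := fun y hy => (i.re hy).2.2.2.1
  have up : ∀ y ∈ V, u y * (cK κ * rl (m.p y) * cK κ) = u y := fun y hy =>
    mul_src (uu y hy) (ep y ▸ mb.pidem y trivial) (ep y ▸ mb.psym y trivial)
  have t1 : ∀ y ∈ V, ∀ T, trE (iL κ * (trn (u y) * (T * u y))) = trE (iL κ * rl (m.p y) * T) :=
    fun y hy T => by
      rw [← mul_assoc, ← mul_assoc, Wz78.trE_comm, ← mul_assoc, ← mul_assoc, uJ y hy, mul_assoc (iL κ),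
        uu' y hy]
  have t2 : ∀ y ∈ V, ∀ T, trE (iL κ * (trn (u y) * (u y * (cK κ * T * cK κ)))) =
      -trE (iL κ * rl (m.p y) * T) := fun y hy T => by
    rw [← mul_assoc (trn _), uu y hy, mul_assoc (iL κ), ← tr_cK]
    simp only [mul_assoc]
    rw [← mul_assoc (cK κ) (cK κ), cK_sq, one_mul]
  have key : ∀ y ∈ V, Eqv71.Itw I F.e (fun a y => cK κ * A a y * cK κ + k1 F α a y • iL κ) A u y :=
    fun y hy a => by
      have ey := h1.eventually_mem hy
      have C : CA F m.re.p m.re.ρ A y := ⟨hA.cc.sp y, (hA.cc.sρ · y), (hA.cc.par · y), (hA.cc.comp · · y)⟩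
      have k := dif_eq (C.conj cK_sq) C (i.re hy).1
        (by have := p8_on hB mb y; simp only [ep, eρ] at this; exact this) a (cK_skw (hA.sk a y)) (hA.sk a y)
        (cK_comm (hA.AJ a y)) (hA.AJ a y) Line51.iL_skw (fun b => m0.ρsk b y trivial) (ey.mono uu)
        (uu' y hy) (ey.mono up) (ey.mono fun z hz => by
          rw [show m.re.p z = _ from (uu' z hz).symm, mul_assoc, uu z hz, up z hz]) (ey.mono uJ)
        fun b => ey.mono fun z hz => (((i.re hz).2.2.2.2 b).symm.trans (congrArg _ (eρ b z)))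
      have e1 : k1 F α a y = -trE (iL κ * (trn (u y) * F.D a u y)) / 8 + bA m A a y := by
        rw [← kβ, k1, show α y = _ from (h4.par y hy).symm, Num57.e1_add, th_unc (h4.toUni.sm y hy),
          Pre.D_def, hu, Line51.dv_rl (i.sm y hy)]
        rfl
      change F.D a u y + A a y * u y = u y * (cK κ * A a y * cK κ + k1 F α a y • iL κ)
      change F.D a u y + A a y * u y - u y * (cK κ * A a y * cK κ) = (-trE (iL κ * (trn (u y) *
        (F.D a u y + A a y * u y - u y * (cK κ * A a y * cK κ)))) / 8) •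
          (u y * (iL κ * (cK κ * rl (m.p y) * cK κ))) at k
      rw [mul_sub (trn _), mul_add (trn _), mul_sub, mul_add, map_sub, map_add, t1 y hy, t2 y hy,
        cK_comm (Line51.iL_mul _), ← mul_assoc (u y) _ (iL κ), up y hy, sub_eq_iff_eq_add'] at k
      rw [k, mul_add, mul_smul_comm, e1]
      congr 2
      simp only [bA]
      ring
  have sα := fun a => Num57.sa_k1 F (h5 x h2) a
  have c : SA I (fun _ : M => cK κ) x := contMDiffAt_const
  have k := Eqv71.itw_curv (frm F) (ev.mono key) (i.re h2).1 (fun a => ((c.mul (hA.cc.sm a x)).mul c).add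
    ((sα a).smul contMDiffAt_const)) (hA.cc.sm · x) a b
  have e2 : curv I F.e F.c (fun a y => cK κ * A a y * cK κ + k1 F α a y • iL κ) a b x =
      cK κ * curv I F.e F.c A a b x * cK κ + k2 F (dM I α) a b x • iL κ := by
    have k1' : ∀ a b, dv I (F.e a) (fun y => cK κ * A b y * cK κ + k1 F α b y • iL κ) x =
        cK κ * dv I (F.e a) (A b) x * cK κ + F.D a (k1 F α b) x • iL κ := fun a b => by
      rw [Wz78.dv_add' ((c.mul (hA.cc.sm b x)).mul c) ((sα b).smul contMDiffAt_const),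
        Wz78.dv_mul (c.mul (hA.cc.sm b x)) c, Wz78.dv_mul c (hA.cc.sm b x),
        dv_smul (sα b).md mdifferentiableAt_const, dv_const, dv_const]
      simp [Pre.D_def]
    have k2' : ∀ S T, cK κ * S * cK κ * (cK κ * T * cK κ) = cK κ * (S * T) * cK κ := fun S T => by
      simp only [mul_assoc]; rw [← mul_assoc (cK κ) (cK κ), cK_sq, one_mul]
    have k3 := fun a => cK_comm (hA.AJ a x)
    rw [Num57.k2_dM F (h5 x h2) (ev.mono h6)]
    simp only [curv, k1', add_mul, mul_add, k2', smul_mul_assoc, mul_smul_comm, k3, mul_sub, sub_mul,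
      Finset.mul_sum, Finset.sum_mul, smul_add, Finset.sum_add_distrib, sub_smul, Finset.sum_smul,
      smul_smul]
    module
  have e3 := congrArg (fun T => trE (iL κ * (trn (u x) * T))) k
  simp only [e2, ← ContinuousLinearMap.mul_def, mul_add, mul_smul_comm, map_add, map_smul,
    t1 x h2, t2 x h2] at e3
  rw [← mul_assoc (trn _), uu x h2, ← cK_comm (Line51.iL_mul _), ← mul_assoc, Line51.iL_sq,
    neg_one_mul, map_neg, ← ep, Wz78.trE_eq (m.bar.re.p x), mb.prk x trivial, smul_eq_mul] at e3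
  rw [k2, h7 h2, ← k2]
  linarith

/-- the potential is local -/
theorem fm1_cn {F' : Fr I M ι} {O : Set M} (hO : IsOpen O) (he : ∀ a, ∀ x ∈ O, F.e a x = F'.e a x)
    (T : ι → M → En (κ ⊕ κ)) {x : M} (hx : x ∈ O) :
    fm1 F (bA m fun a x => cn F m.re a x + T a x) x =
      fm1 F' (bA m fun a x => cn F' m.re a x + T a x) x := by
  have r : FRel F F' id O := ⟨hO, (FRel.refl F hO).ld, fun a y hy => by
    rw [mfderiv_id]; exact he a y hy⟩
  refine (Num57.cf F x).ext1' (Num57.deg_fm1 _ _ x) (Num57.deg_fm1 _ _ x) fun k => ?_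
  refine (Num57.k1_fm1 F _ k x).trans (Eq.trans ?_ ((Num57.k1_fm1 F' _ k x).symm.trans
    (congrArg _ (he k x hx).symm)))
  refine Finset.sum_congr rfl fun a _ => ?_
  rw [bA, bA, cn_lit r (fun _ _ => rfl) (fun _ _ _ => rfl) hx a, r.P hx]
  rfl

section bg
open Crest.Agent.X212.Sw
variable {κ l : Type} [Fintype κ] [DecidableEq κ] [Fintype l] [DecidableEq l] {X : Mf 4} {nc : ℕ}
  {b : Bg X.I X.M κ lam (l ⊕ l) nc} {m : C8 X.M (Option κ) l}

theorem cur_fc (hb : b.OK) (e : b.m = m.re) (h : m.On X.I (Met55.fP b.F.e) univ) :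
    (lA b.F m b.A).On X.I univ ∧
      ∀ x s, k2 b.F ((lA b.F m b.A).F X.I) s.1 s.2 x = 2 * b.fc ⟨0, 0⟩ x s := by
  have hA : AC b.F m.re b.A := e ▸ ⟨hb.G.P ▸ hb.cc, hb.sk, hb.AJ⟩
  have := scs (I := X.I) (M := X.M)
  refine ⟨on_lA h hA, fun x s => (cur_ac hb.B hb.G.P h hA _ _ x).trans ?_⟩
  have := Wz78.inner_hsL_skw (S := b.jp x)
    (Spn45.Sk.mul_sy hb.m.Jsk (hb.m.psym x trivial) (hb.m.Jp x trivial))
  have w : b.W ⟨0, 0⟩ = b.A := funext fun i => funext fun x => by simp [Bg.W]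
  simp only [Bg.fc, this, w]
  rw [Bg.jp, e]
  show _ = 2 * (1 / 8 * -trE (iL l * rl (m.p x) * _))
  ring

end bg

end Crest.Agent.X212.Nrm43
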