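import Crest.Agent.X212.Sw87.MoL

/-!
# Row 212, GEO engine (helper43), E-NRM: the normal form of a closed form on a band
-/

set_option autoImplicit false
set_option linter.unusedSectionVars false
noncomputable section
open scoped Manifold ContDiff Topology
open Set Function Filter

namespace Crest.Agent.X212.Nrm43
open An Cyf70 Sw Flo2 Geo28 Met55 Sw87.Mo
open Crest.Agent.R208.F (Ext)
open Dr59 (Cs Cl Ex Dg pm Mp Ht Cz dM psh ne0)
open Int54 (Ori)

/-- Stokes -/
theorem ip_d {X : M4} {k : ℕ} {b e : X.Fm} (hb : Dr59.Sm X.I univ b) (hc : HasCompactSupport b)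
    (he : Cl X.I k univ e) : X.ip (dM X.I b) e = 0 := by
  rw [← Int54.stokes_sm X.ori (fun x => (hb.mul he.sm) x trivial) hc.mul_right]
  refine Int54.integ_congr fun x => congrArg _ ?_
  rw [Dr59.dM_mul ne0 (hb x trivial) (he.sm x trivial), he.cl x trivial, mul_zero, add_zero]
  rfl

theorem cs_d {X : M4} {k : ℕ} {b : X.Fm} (hb : Dr59.Sm X.I univ b) (hd : Dg k univ b)
    (hc : HasCompactSupport b) : Cs X.I (k + 1) univ (dM X.I b) :=
  ⟨Dr59.cl_dM isOpen_univ hb hd, .intro hc fun _ => Int54.dM_eq_zero, subset_univ _⟩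

theorem jk_cvx (s : Option Bool) : Convex ℝ (Jk s) := by
  rcases s with _ | _ | _
  exacts [convex_Ioo _ _, convex_Iio _, convex_Ioi _]

theorem jk_ne (s : Option Bool) : (Jk s).Nonempty := by
  rcases s with _ | _ | _
  exacts [nonempty_Ioo.2 four_pos, nonempty_Iio, nonempty_Ioi]

theorem jm_ev {s : Option Bool} {σ : ℝ} (h : σ ∉ Jm s (1 / 2)) : ∀ᶠ r in 𝓝 σ, r ∉ Jm s (1 / 4) := by
  rcases s with _ | _ | _
  · simp only [jm_none, not_and_or, not_lt] at h ⊢
    rcases h with h | h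
    · exact (eventually_lt_nhds (show σ < 1 - 1 / 4 by linarith)).mono fun _ k => .inl k.le
    · exact (eventually_gt_nhds (show 3 + 1 / 4 < σ by linarith)).mono fun _ k => .inr k.le
  · simp only [jm_in, not_lt] at h ⊢
    exact (eventually_gt_nhds (show -1 + 1 / 4 < σ by linarith)).mono fun _ k => k.le
  · simp only [jm_out, not_lt] at h ⊢
    exact (eventually_lt_nhds (show σ < 1 - 1 / 4 by linarith)).mono fun _ k => k.le

variable {κ : Type} [Fintype κ] [DecidableEq κ] {X : M4} (b : NB κ X)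

variable {b} in
theorem mem_U {s : Option Bool} (h : b.s = s) {d : ℝ} {x : X.M} : x ∈ b.U d ↔ b.n.tm x ∈ Jm s d :=
  h ▸ Iff.rfl

theorem sm_k {x : b.e.A.Y.M × ℝ} (hx : x ∈ b.k.source) :
    ContMDiffAt (IY b.e.A) X.I ∞ b.n.k x := (b.sm x hx).contMDiffAt (b.k.open_source.mem_nhds hx)

theorem sm_k' {x : X.M} (hx : x ∈ b.k.target) :
    ContMDiffAt X.I (IY b.e.A) ∞ b.k.symm x := (b.sm' x hx).contMDiffAt (b.k.open_target.mem_nhds hx)

/-- the cut-off -/
theorem cz : Cz X.I univ (b.U (1 / 2)) fun x => cu b.s (b.n.tm x) := by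
  have z : ∀ x ∉ b.U (1 / 2), (fun x => cu b.s (b.n.tm x)) =ᶠ[𝓝 x] 0 := fun x hx =>
    (b.n.cont.continuousAt.eventually (jm_ev hx)).mono fun _ => cu_zero
  refine ⟨fun x _ => ?_, fun x _ => z x⟩
  by_cases hx : x ∈ b.k.target
  · refine ((cu_sm b.s).contMDiff.contMDiffAt.comp x
      (contMDiffAt_snd.comp x (sm_k' b hx))).congr_of_eventuallyEq ?_
    exact eventually_of_mem (b.k.open_target.mem_nhds hx) fun y hy =>
      congrArg (cu b.s) (NB.symm_snd hy).symm
  · exact contMDiffAt_const.congr_of_eventuallyEq (z x fun k => hx (b.U_sub (by norm_num) k))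

/-- the pull-back is cohomologous to a form on the whole cylinder -/
theorem ex_slice {f : X.Fm} (hf : Cl X.I 2 univ f) : ∃ g, Cl (IY b.e.A) 2 univ g ∧
    Ex (IY b.e.A) (univ ×ˢ Jk b.s) (pm (IY b.e.A) X.I b.n.k f - g) := by
  obtain ⟨c, hc⟩ := jk_ne b.s
  have m : Mp (IY b.e.A) X.I univ univ fun z : b.e.A.Y.M × ℝ => b.n.k (z.1, c) :=
    ⟨fun z _ => (sm_k b (b.src.ge ⟨trivial, hc⟩)).comp z (contMDiffAt_fst.prodMk contMDiffAt_const),
      mapsTo_univ _ _⟩
  have H : Ht (IY b.e.A) X.I (univ ×ˢ Jk b.s) univ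
      fun p => b.n.k (p.1.1, (1 - p.2) • c + p.2 • p.1.2) :=
    ⟨fun z hz t ht => (sm_k b (b.src.ge ⟨trivial,
      Dr59.seg_mem ((jk_cvx b.s).starConvex hc) hz.2 ht⟩)).comp (z, t)
        ((contMDiffAt_fst.comp _ contMDiffAt_fst).prodMk ((Dr59.contMDiff_seg c _).comp _
          ((contMDiffAt_snd.comp _ contMDiffAt_fst).prodMk contMDiffAt_snd))), fun _ _ _ _ => trivial⟩
  refine ⟨_, hf.pm m, ?_⟩
  simpa using H.ex (isOpen_univ.prod (jm_one b.s ▸ jm_open b.s 1)) hf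

variable (κ) in
/-- **E-NRM** -/
theorem nrm : NrmStmt κ := fun {X} b f₀ ⟨z, z1, z2, z3⟩ hf => by
  obtain ⟨g, g1, g2⟩ := ex_slice b hf
  obtain ⟨r, hr⟩ := z3 g g1
  have e := g2.trans (hr.mono (subset_univ _))
  have m : Mp (IY b.e.A) X.I (univ ×ˢ Jk b.s) univ b.n.k :=
    ⟨fun x hx => sm_k b (b.src.ge hx), mapsTo_univ _ _⟩
  obtain ⟨β, β1, β2, β3⟩ := e.deg (((hf.pm m).sub ((z1.smul r).mono (subset_univ _))).dg)
  have m' : Mp X.I (IY b.e.A) (b.U (1 / 2)) (univ ×ˢ Jk b.s) b.k.symm :=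
    ⟨fun x hx => sm_k' b (b.U_sub (by norm_num) hx),
      fun x hx => b.src.le (b.k.map_target (b.U_sub (by norm_num) hx))⟩
  have e' : EqOn (psh b.n.k β) (pm X.I (IY b.e.A) b.k.symm β) (b.U (1 / 2)) := fun x hx =>
    indicator_of_mem (b.U_sub (by norm_num) hx) _
  set γ := (fun x => cu b.s (b.n.tm x)) • psh b.n.k β with hγ
  have s1 : Dr59.Sm X.I univ γ := (cz b).sm_smul ((β1.pm m').congr (b.U_open _) e')
  have s2 : Dg 1 univ γ := (cz b).dg_smul ((β2.pm m'.maps).congr e')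
  refine ⟨f₀ - dM X.I γ, r, hf.sub (Dr59.cl_dM isOpen_univ s1 s2), fun x hx a a' => ?_,
    fun x hx => ?_, fun h => by simpa [h] using e, fun h hc => ?_⟩
  · have hx' := b.V_sub zero_le_one hx
    have k1 : pm (IY b.e.A) X.I b.n.k γ =ᶠ[𝓝 x] β :=
      eventually_of_mem ((b.V_open 0).mem_nhds hx) fun y hy => by
        rw [Dr59.pm_fsmul, Pi.smul_apply', Dr59.pm_psh _ (b.V_sub zero_le_one hy), comp_apply,
          show b.n.tm (b.n.k y) = y.2 from NB.tm_k (b.V_sub zero_le_one hy), cu_one hy.2, one_smul]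
    have k2 : pm (IY b.e.A) X.I b.n.k (f₀ - dM X.I γ) x = r • z x := by
      rw [Dr59.pm_sub, Pi.sub_apply, ← Dr59.dM_pm ne0 (sm_k b hx') (s1 _ trivial), Dr59.dM_congr k1,
        β3 x (b.src.le hx'), Pi.sub_apply, sub_sub_cancel]
      rfl
    have k3 := z2 x a a'
    rw [Int54.cf] at k3 ⊢
    rw [show pm (IC b.e.A.Y.I) X.I b.k _ x = _ from k2, map_smul, AlternatingMap.smul_apply, k3,
      smul_eq_mul, mul_ite, mul_zero]
  · rw [Pi.sub_apply, Dr59.dM_congr ((cz b).smul_zero trivial hx _), Dr59.dM_zero, Pi.zero_apply,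
      sub_zero]
  · have s3 : HasCompactSupport γ := by
      refine .intro ((isCompact_univ.prod (isCompact_Icc (a := 3 / 4) (b := 13 / 4))).image_of_continuousOn
        (b.k.continuousOn.mono fun y hy => b.src.ge ⟨trivial, ?_⟩)) fun x hx => ?_
      · rw [h]
        exact ⟨by linarith [hy.2.1], by linarith [hy.2.2]⟩
      · rw [hγ, Pi.smul_apply', cu_zero fun k => hx ?_, zero_smul]
        have k' := b.U_sub (d := 1 / 4) (by norm_num) k
        refine ⟨_, ⟨trivial, ?_⟩, b.k.right_inv k'⟩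
        have k := jm_none.1 ((mem_U h).1 k)
        rw [NB.symm_snd k']
        exact ⟨by linarith [k.1], by linarith [k.2]⟩
    have s4 := cs_d s1 s2 s3
    refine ⟨hc.sub' s4, fun y hy => ?_⟩
    have := Dr59.ip_add_right (hc.sub' s4) s4 X.ori hy.sm
    rw [sub_add_cancel, Dr59.ip_comm hy.dg (dM X.I γ), show Dr59.ip _ _ _ _ = _ from ip_d s1 s3 hy,
      add_zero] at this
    exact this.symm

end Crest.Agent.X212.Nrm43
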