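import Crest.Agent.X212.Nrm43.Nrm
import Crest.Agent.X212.Nrm43.Cur
import Crest.Agent.X212.Mp86.Lb
import Crest.Agent.X212.Sw88.Gd

/-!
# Row 212, GEO engine (helper43), E-TF: test forms and labels
-/

set_option autoImplicit false
set_option linter.unusedSectionVars false
noncomputable section
open scoped Manifold ContDiff Topology InnerProductSpace
open MeasureTheory Set Function Filter

namespace Crest.Agent.X212.Nrm43
open An Cyf70 Sw Flo2 Geo28 Met55 Sw87.Mo
open Crest.Agent.R208.F (Ext evA)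
open Dr59 (Cs Cl Ex Dg pm dM ne0)
open Int54 (oc volF)
open Num57 (k1 k2 fm1)
open Nd18 (Jv)
open Bor5.T (Cur)

variable {κ : Type} [Fintype κ] [DecidableEq κ] {μ : Type} [Fintype μ] [DecidableEq μ]
  {X : M4} {τ : MT κ X} {k : ℕ}

theorem ip_add_d {n : ℕ} {b e : X.Fm} (hb : Dr59.Sm X.I univ b) (hc : HasCompactSupport b)
    (he : Cl X.I n univ e) (y : X.Fm) : X.ip (y + dM X.I b) e = X.ip y e := by
  have i := (X.ori.intOn_of_hcs (a := dM X.I b * e) (fun x => ((hb.dM.mul he.sm) x trivial).of_le (by simp))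
    (HasCompactSupport.intro hc fun _ => Int54.dM_eq_zero).mul_right univ).integrable
  have z : ∫ x, Int54.rat X.o (dM X.I b * e) x ∂_ = 0 := ip_d hb hc he
  simp only [M4.ip, Dr59.ip, Int54.integ, add_mul, Int54.rat_add]
  by_cases h : Integrable (Int54.rat X.o (y * e)) (Int54.dens X.I X.o)
  · rw [integral_add' h i, z, add_zero]
  · rw [integral_undef h, integral_undef fun k => h ((integrable_add_iff_integrable_left i).1 k)]

/-- components on a literal band -/
theorem cmp_k {b : NB κ X} {e : Option κ → VF X.I X.M} {v r : ℝ} {f : X.Fm} (h : b.Rl e v 0)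
    (hz : b.Zf f r) {x : b.e.A.Y.M × ℝ} (hx : x ∈ b.V 0) (a a' : Option κ) :
    cmp e f (b.k x) (a, a') = if a.isSome ∧ a'.isSome then r * b.e.ζ x.1 (a, a') else 0 := by
  let c : Option κ → ℝ := fun a => a.elim (sd v x.2)⁻¹ fun _ => 1
  have e1 : ∀ a, b.e.nf v a x = c a • ce b.e.D.F.e a x := fun a => by
    cases a with
    | none => exact Prod.ext (smul_zero _).symm (mul_one _).symm
    | some a => exact (one_smul _ _).symm
  have e2 : cmp e f (b.k x) (a, a') = (∏ i, c (![a, a'] i)) •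
      Int54.cf (I := IC b.e.A.Y.I) (ce b.e.D.F.e) 2 (pm (IC b.e.A.Y.I) X.I b.k f) ![a, a'] x := by
    rw [Int54.cf]
    refine Eq.trans ?_ ((evA _ 2 _).toMultilinearMap.map_smul_univ _ _)
    refine Eq.trans ?_ (R208.F.evA_pb 2 _ _ _).symm
    refine congrArg (evA _ 2 (f (b.k x))) (funext fun i => ((h _ x hx).symm.trans ?_))
    rw [e1]
    rfl
  rw [e2, hz x hx]
  cases a <;> cases a' <;> simp [c]

section mb
variable (β : MB τ k) (t : Tk k)

theorem cmp_k2 (f : X.Fm) (x : X.M) (s : Option κ × Option κ) :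
    cmp (β.e t) f x s = k2 (β.F t) f s.1 s.2 x :=
  congrArg (evA _ 2 (f x)) (funext fun i => by fin_cases i <;> rfl)

theorem P_eq : (β.F t).P = β.B.P := by
  funext a b x
  exact congrFun (congrFun (β.P t x) a) b

theorem wd_cmp (ens : Ens μ τ) (C : ℕ → ℝ) {y : X.Fm} (hy : Dg 2 univ y) (f : X.Fm) :
    (β.bs ens C).wd t (cmp (β.e t) y) (cmp (β.e t) f) = 2 * X.ip y f := by
  rw [M4.ip, Dr59.ip, X.ori.integ_vol (F := (β.F t).toPre) (rFr_vol _ _), ← integral_const_mul]
  refine integral_congr_ae (.of_forall fun x => ?_)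
  have hv := X.ori.unit_vol (β.F t).toPre
  have vo : Num57.Vo (fun a b => (β.F t).P a b x) fun a b c d =>
      oc (β.F t).e (volF X.o (β.F t).e) a b c d x :=
    ⟨fun a b c d => Int54.oc_12 _ _ _ _ x, fun a b c d => Int54.oc_23 _ _ _ _ x,
      fun a b c d => Int54.oc_34 _ _ _ _ x, fun a b c d => Int54.oc_P a b c d x,
      hv.oc_nm x X.X.dim⟩
  have h := vo.ph_mul (Num57.cf (β.F t) x) (hy x trivial) (f x)
  have o : β.B.o = oc (β.F t).e (volF X.o (β.F t).e) := (β.o t).symm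
  have e : Int54.rat (volF X.o (β.F t).e) (y * f) x = _ := (hv.rat_oc x X.X.dim _).trans (by
    simp only [Int54.oc_apply (v := y * f)]; exact h)
  show ⟪_, idx (β.B.st x) _ _⟫_ℝ = 2 * Int54.rat (volF X.o (β.F t).e) (y * f) x
  simp only [e, Sw88.inner_F2, Wz78.idx_apply, Base.st, o, cmp_k2, Fintype.sum_prod_type,
    ContinuousLinearMap.id_apply, smul_eq_mul, Finset.mul_sum, k2]
  refine Finset.sum_congr rfl fun a _ => Finset.sum_congr rfl fun b _ =>
    Finset.sum_congr rfl fun c _ => Finset.sum_congr rfl fun d _ => by ring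

theorem cont_cmp {f : X.Fm} (hf : Dr59.Sm X.I univ f) :
    Continuous fun z : Tk k × X.M => cmp (β.e z.1) f z.2 := by
  refine (PiLp.continuous_toLp 2 _).comp (continuous_pi fun s => ?_)
  have e : ∀ z : Tk k × X.M, Int54.cf (β.e z.1) 2 f ![s.1, s.2] z.2 = ∑ Φ : Fin 2 → Option κ,
      (∏ i, fT (β.e 0) (β.e z.1 (![s.1, s.2] i)) z.2 (Φ i)) * Int54.cf (β.e 0) 2 f Φ z.2 := fun z =>
    (congrArg (evA _ 2 (f z.2)) (funext fun i => (sum_fT (β.sp 0 z.2) _).symm)).trans
      (Int54.evA_mix 2 _ (Int54.fv (β.e 0) z.2) _)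
  simp only [e]
  refine continuous_finsetSum _ fun Φ _ => (continuous_finsetProd _ fun i _ =>
    continuous_iff_continuousAt.2 fun z => ?_).mul (Continuous.comp (ContMDiff.continuous
      fun x => Int54.contMDiffAt_cf le_rfl (β.fr 0 x).sm (hf x trivial) Φ) continuous_snd)
  exact (jAt_fT (e := fun _ => β.e 0) (fun a => VJ.of_fixed ((β.fr 0 z.2).sm a)) (β.sp 0 z.2)
    (β.sm _ z.1 z.2) _).continuousAt

variable {β t}

theorem v_wl {c : Fin k} {i : τ.N} (h : β.wl c = some i) : β.v t i = t c := by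
  rw [MB.v, MT.sw, if_pos (β.fin c i h), Fintype.sum_eq_single c fun c' k =>
    if_neg fun h' => k (β.inj _ _ _ h' h), if_pos h]

theorem act_of {i : τ.N} (h : 0 < β.v t i) : β.Act i := by
  by_contra k
  rw [MB.Act, not_or, not_not, not_exists] at k
  simp [MT.sw, k.1, k.2] at h

theorem v_end {i : τ.N} (h : (τ.nb i).s ≠ none) : β.v t i = 2 := if_neg h

/-- off the long necks the frames are frames of a compact family -/
theorem e_clip (ht : t ∈ dom β.wl) {x : X.M} (h : ∀ i, 1 < β.v t i → x ∉ (τ.nb i).U 0)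
    (S : Finset (Fin k)) (a : Option κ) :
    β.e (fun c => if c ∈ S then min (t c) 3 else t c) a x = β.e t a x := by
  induction S using Finset.induction_on with
  | empty => simp
  | insert c S hc ih =>
    have e : (fun c' => if c' ∈ insert c S then min (t c') 3 else t c') =
        update (fun c' => if c' ∈ S then min (t c') 3 else t c') c (min (t c) 3) := by
      funext c'
      by_cases k : c' = c
      · simp [k]
      · simp [k]
    rw [e, ← ih]
    rcases le_total (t c) 3 with k | k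
    · rw [update_eq_self_iff.2 (by simp [hc, k])]
    · obtain ⟨i, hi⟩ := Option.ne_none_iff_exists'.1 fun k' => by linarith [(ht c).2 k']
      refine β.loc c i hi _ _ (by simpa [hc] using k) (le_min k le_rfl) x (fun k' => h i ?_ ?_) a
      · rw [v_wl hi]; linarith
      · exact (mem_U (β.fin c i hi)).2 (jm_none.2 ⟨by linarith [k'.1], by linarith [k'.2]⟩)

theorem cmp_bd {f : X.Fm} {r : τ.N → ℝ} (hf : Dr59.Sm X.I univ f)
    (hζ : ∀ i, An.Sm (τ.nb i).e.A.Y.I (τ.nb i).e.ζ) (hz : ∀ i, β.Act i → (τ.nb i).Zf f (r i)) :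
    ∃ C, ∀ t ∈ dom β.wl, ∀ x, ‖cmp (β.e t) f x‖ ≤ C := by
  have h1 : ∀ i, ∃ C, ∀ t, 1 < β.v t i → ∀ x ∈ (τ.nb i).U 0, ‖cmp (β.e t) f x‖ ≤ C := fun i => by
    obtain ⟨C, hC⟩ := isCompact_univ.exists_bound_of_continuousOn (f := fun y => (WithLp.toLp 2
      fun s => if s.1.isSome ∧ s.2.isSome then r i * (τ.nb i).e.ζ y s else 0 : F2 κ))
      ((PiLp.continuous_toLp 2 _).comp (continuous_pi fun s => continuous_if_const _
        (fun _ => continuous_const.mul (ContMDiff.continuous fun y => Sep15.S.sa_ev (hζ i y) s))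
        fun _ => continuous_const)).continuousOn
    refine ⟨C, fun t ht x hx => (congrArg norm (PiLp.ext fun s => ?_)).trans_le
      (hC ((τ.nb i).k.symm x).1 trivial)⟩
    have := cmp_k ((β.lit t i ht).mono (by norm_num)) (hz i (act_of (one_pos.trans ht)))
      (NB.symm_mem zero_le_one hx) s.1 s.2
    rwa [(τ.nb i).k.right_inv ((τ.nb i).U_sub zero_le_one hx)] at this
  choose C hC using h1
  obtain ⟨C₁, h1⟩ := (finite_range C).bddAbove
  obtain ⟨C₂, h2⟩ := ((isCompact_Icc (a := (0 : Tk k)) (b := fun _ => 3)).prod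
    (τ.cpt 2)).exists_bound_of_continuousOn (cont_cmp β hf).continuousOn
  refine ⟨max C₁ C₂, fun t ht x => ?_⟩
  by_cases h : ∃ i, 1 < β.v t i ∧ x ∈ (τ.nb i).U 0
  · obtain ⟨i, a, b⟩ := h
    exact le_max_of_le_left ((hC i t a x b).trans (h1 ⟨i, rfl⟩))
  simp only [not_exists, not_and] at h
  have k : ∀ i s, (τ.nb i).s = some s → (τ.nb i).n.tm x ∉ Jm (some s) 0 := fun i s hs k =>
    h i (by rw [v_end (by simp [hs])]; norm_num) ((mem_U hs).2 k)
  refine le_max_of_le_right (Eq.trans_le (congrArg norm (PiLp.ext fun s => ?_))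
    (h2 (fun c => min (t c) 3, x) ⟨⟨fun c => le_min (ht c).1 three_pos.le, fun c => min_le_right _ _⟩,
      fun i => ⟨fun hs => ?_, fun hs => ?_⟩⟩))
  · refine congrArg (evA _ 2 (f x)) (funext fun i => ?_)
    have := e_clip ht h Finset.univ (![s.1, s.2] i)
    simp only [Finset.mem_univ, if_true] at this
    exact this.symm
  · have := k i _ hs
    rw [jm_out, not_lt] at this
    linarith
  · have := k i _ hs
    rw [jm_in, not_lt] at this
    linarith

variable (β) in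
theorem tf_ex (ens : Ens μ τ) (C : ℕ → ℝ) (f : X.Fm) (r : τ.N → ℝ) (hf : Cl X.I 2 univ f)
    (hζ : ∀ i, An.Sm (τ.nb i).e.A.Y.I (τ.nb i).e.ζ) (hz : ∀ i, β.Act i → (τ.nb i).Zf f (r i)) :
    ∃ e : (β.bs ens C).Tf, e.r = r ∧ ∀ t, e.e t = cmp (β.e t) f := by
  refine ⟨⟨fun t => cmp (β.e t) f, r, fun t _ x => Sep15.S.sa_lp fun s =>
    Int54.contMDiffAt_cf le_rfl (β.fr t x).sm (hf.sm x trivial) _, fun t _ x => PiLp.ext fun s => ?_,
    cmp_bd hf.sm hζ hz, fun t _ a ha pa => ?_, fun t _ i K hK y s hs a a' => ?_⟩, rfl, fun _ => rfl⟩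
  · simp only [Wz78.idx_apply, ContinuousLinearMap.id_apply, cmp_k2]
    exact Wz78.a2_fix (T := fun a b => k2 (β.F t) f a b x) (fun a b => Num57.k2_swap _ _ _ _ _)
      (fun a b => P_eq β t ▸ Num57.k2_P (β.F t) f a b x) s
  · have s1 : Dr59.Sm X.I univ (fm1 (β.F t) a) := fun x _ => Num57.smAt_fm1 _ fun i => (ha i).1 x
    have e1 : ∀ i, k1 (β.F t) (fm1 (β.F t) a) i = a i := fun i => funext fun x => by
      rw [Num57.k1_fm1, P_eq]; exact pa i x
    have e2 : (β.bs ens C).dd t a = cmp (β.e t) (dM X.I (fm1 (β.F t) a)) :=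
      funext fun x => PiLp.ext fun s => by
        rw [cmp_k2, Num57.k2_dM_fm1 _ fun i => (ha i).1 x]
        simp only [e1]
        rfl
    rw [e2, wd_cmp β t ens C (Dg.dM isOpen_univ fun x _ => Num57.deg_fm1 _ _ x),
      ip_d s1 (.intro (isCompact_iUnion fun i => (ha i).2) fun x hx => ?_) hf, mul_zero]
    rw [Num57.fm1_apply]
    exact Finset.sum_eq_zero fun i _ => by
      rw [image_eq_zero_of_notMem_tsupport fun k => hx (mem_iUnion.2 ⟨i, k⟩), zero_smul]
  · change (if 3 / 2 < β.v t i then some ((τ.nb i).ng (β.v t i)) else none) = some K at hK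
    split_ifs at hK with h
    obtain rfl := Option.some.inj hK
    have h1 : 1 < β.v t i := by linarith
    exact cmp_k ((β.lit t i h1).mono (by norm_num)) (hz i (act_of (one_pos.trans h1)))
      (NB.cy_mem (v := β.v t i) (x := (y, s))
        ⟨fun p hp => by linarith [hs.1 _ (Option.mem_map_of_mem _ hp)],
          fun p hp => by linarith [hs.2 _ (Option.mem_map_of_mem _ hp)]⟩) a a'

end mb

section mc
variable {β : MB τ k} (c : MC μ β) (t : Tk k)

/-- the potential of the reference connection -/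
abbrev pot : X.Fm := fm1 (β.F t) (bA c.m (c.P t).bg.A)

/-- the curvature form of the reference connection -/
abbrev cuv : X.Fm := (lA (β.F t) c.m (c.P t).bg.A).F X.I

theorem nk_mem {i : τ.N} {K} (h : K ∈ (c.P t).nk i) :
    3 / 2 < β.v t i ∧ K.ng = (τ.nb i).ng (β.v t i) := by
  classical
  change (if h : 3 / 2 < β.v t i ∧ ∃ K : Nk (X := X.X) (c.ty i).en (c.bg t (β.v t) (c.ct t)),
    K.ng = (τ.nb i).ng (β.v t i) then some h.2.choose else none) = some K at h
  split_ifs at h with k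
  obtain rfl := Option.some.inj h
  exact ⟨k.1, k.2.choose_spec⟩

theorem nk_inf {i : τ.N} {K} (h : K ∈ (c.P t).nk i) (s : Bool) :
    K.Inf s ↔ (τ.nb i).s = some s := by
  have h := (nk_mem c t h).2
  have h1 : K.p = pa (τ.nb i).s := congrArg (·.1) h
  have h2 : K.q = qa _ (τ.nb i).s := congrArg (·.2.1) h
  rcases hs : (τ.nb i).s with _ | _ | _ <;> rw [hs] at h1 h2 <;>
    cases s <;> simp [Nk.Inf, h1, h2, pa, qa]

variable (H : PzStmt κ μ)
include H

theorem cuv_spec : (lA (β.F t) c.m (c.P t).bg.A).On X.I univ ∧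
    (c.P t).bg.fc ⟨0, 0⟩ = cmp (β.e t) ((1 / 2 : ℝ) • cuv c t) := by
  have h := cur_fc (H.ok c t).1.bg (m := c.m) rfl (c.mon.congr fun x _ => β.P t x)
  refine ⟨h.1, funext fun x => PiLp.ext fun s => ?_⟩
  have k : k2 (β.F t) (cuv c t) s.1 s.2 x = 2 * (c.P t).bg.fc ⟨0, 0⟩ x s := h.2 x s
  rw [cmp_k2, k2, Pi.smul_apply, Num57.e2_smul, ← k2, k]
  ring

theorem wd_fc (ens : Ens μ τ) (C : ℕ → ℝ) (f : X.Fm) :
    (β.bs ens C).wd t ((c.P t).bg.fc ⟨0, 0⟩) (cmp (β.e t) f) = X.ip (cuv c t) f := by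
  have h := cuv_spec c t H
  rw [h.2, wd_cmp β t ens C ((h.1.cl_F isOpen_univ).smul _).dg, M4.ip, Dr59.ip_smul]
  ring

theorem wd_base (ens : Ens μ τ) (C : ℕ → ℝ) (e : (β.bs ens C).Tf) (f : X.Fm) (n : ℤ)
    (he : ∀ t, e.e t = cmp (β.e t) f) (hu : ∀ i, τ.pin = some i → Gau (τ.nb i).e.A.Y.I (c.ec i).u)
    (ht : t ∈ (c.gc ens C).dom) : (c.gc ens C).wd t ((c.P t).bg.fc ((c.P t).base fun i _ =>
      En3.YC.act ((c.gc ens C).gau τ.pin n i) ⟨0, 0⟩)) (e.e t) = X.ip (cuv c t) f +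
        Sw88.hs (c.P t) e.r (fun i _ => En3.YC.act ((c.gc ens C).gau τ.pin n i) ⟨0, 0⟩) / 2 := by
  obtain ⟨B, hB⟩ := e.bd
  obtain ⟨B', hB'⟩ := (finite_range fun i => |e.r i|).bddAbove
  have gau : ∀ j, Gau (c.ty j).en.Y.I ((c.gc ens C).gau τ.pin n j) := fun j => by
    unfold Gc.gau
    split_ifs with h
    · exact gau_zpow (e := (c.ty j).en) (hu j h) n
    · exact ⟨contMDiff_const, by simp⟩
  rw [← wd_fc c t H ens C f, ← he]
  exact Mp86.En.formStmt κ L0 (μ ⊕ μ) _ _ _ _ _ (H.ok c t).1 (e.e t) e.r (max B B')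
    ⟨e.sm t ht, fun x => le_max_of_le_left (hB t ht x), fun j => le_max_of_le_right (hB' ⟨j, rfl⟩),
      e.cl t ht, fun j K hK => e.nk t ht j K.ng ((if_pos (nk_mem c t hK).1).trans
        (congrArg some (nk_mem c t hK).2.symm))⟩
    (fun j _ => En3.YC.act ((c.gc ens C).gau τ.pin n j) ⟨0, 0⟩)
    fun j _ _ => Pb50.Eqv.adm (c.std j).ok Sw88.adm_zero (eqv_act (gau j) _)

theorem tf_pr (ens : Ens μ τ) (C : ℕ → ℝ) (e : (β.bs ens C).Tf) (f : X.Fm) (d : X.L) (y : X.Fm)
    (n : ℤ) (he : ∀ t, e.e t = cmp (β.e t) f) (hf : Cs X.I 2 univ f) (hd : c.Cl d) (hy : Cur d y)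
    (hu : ∀ i, Gau (τ.nb i).e.A.Y.I (c.ec i).u) : (c.gc ens C).pr n e = |X.ip y f| := by
  have := Sob92.scs (I := X.I) (M := X.M)
  have z : ∀ t ∈ (β.bs ens C).dom, ∀ i, (τ.nb i).s ≠ none → ∀ y (a a' : Option κ),
      (if a.isSome ∧ a'.isSome then e.r i * (τ.nb i).e.ζ y (a, a') else 0) = 0 :=
    fun t ht i hi y a a' => by
      obtain ⟨T, hT⟩ := IsCompact.exists_bound_of_continuousOn hf.hc (τ.nb i).n.cont.continuousOn
      obtain ⟨s, hs⟩ := Option.ne_none_iff_exists'.1 hi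
      have h3 : 3 ≤ |T| + 3 := le_add_of_nonneg_left (abs_nonneg T)
      have k := e.nk t ht i ((τ.nb i).ng (β.v t i)) (if_pos (by rw [v_end hi]; norm_num)) y
        (M.pm s * (|T| + 3)) (by cases s <;> simp [NB.ng, hs, Jv, pa, qa, M.pm] <;> linarith) a a'
      have k2 : (τ.nb i).n.tm ((τ.nb i).ψ (β.v t i) (y, M.pm s * (|T| + 3))) = M.pm s * (|T| + 3) := by
        rw [NB.ψ_apply, v_end hi, ← st_two le_rfl (_ * _), symm_st, st_two le_rfl]
        exact NB.tm_k ((τ.nb i).src.ge ⟨trivial, by cases s <;> simp [hs, Jk, M.pm] <;> linarith⟩)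
      refine k.symm.trans ?_
      rw [he]
      refine (congrArg (fun w => evA _ 2 w _) (image_eq_zero_of_notMem_tsupport fun k3 => ?_)).trans
        (by simp)
      have := (congrArg norm k2.symm).trans_le (hT _ k3)
      rw [Real.norm_eq_abs, abs_mul, abs_of_pos (by linarith : 0 < |T| + 3)] at this
      cases s <;> simp [M.pm] at this <;> linarith [le_abs_self T]
  let e' : (β.bs ens C).Tf := ⟨e.e, fun i => if (τ.nb i).s = none then e.r i else 0, e.sm, e.a2, e.bd,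
    e.cl, fun t ht i K hK y s hs a a' => (e.nk t ht i K hK y s hs a a').trans (by
      by_cases h : (τ.nb i).s = none
      · rw [if_pos h]
      · rw [if_neg h, zero_mul, ite_self]
        exact z t ht i h y a a')⟩
  have k : ∀ t ∈ (c.gc ens C).dom, (c.gc ens C).wd t ((c.P t).bg.fc ((c.P t).base fun i _ =>
      En3.YC.act ((c.gc ens C).gau τ.pin n i) ⟨0, 0⟩)) (e.e t) = X.ip y f := fun t ht => by
    obtain ⟨b, b1, -, b2⟩ := Gm56.cur_ex hy (Gm56.cur_of_rp (Gm56.Rp.fam (t' := t) β.sm β.sp β.P hd)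
      (cuv_spec c t H).1)
    refine (wd_base c t H ens C e' f n he (fun i _ => hu i) ht).trans ?_
    rw [Sw88.hs, Finset.sum_eq_zero fun i _ => Finset.sum_eq_zero fun s _ => ?_, zero_div, add_zero,
      show cuv c t = _ from b2, M4.ip, hf.ip_add X.ori (Nvg56.cur_cl hy).sm b1.dM,
      hf.ip_ex X.ori (Dr59.ex_dM b1), add_zero]
    split_ifs with h
    · obtain ⟨K, hK, h⟩ := h
      simp [e', (nk_inf c t hK s).1 h]
    · rfl
  have ne : (c.gc ens C).dom.Nonempty := ⟨0, fun _ => ⟨le_rfl, fun _ => zero_le_one⟩⟩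
  exact (congrArg sInf ((image_congr fun t ht => congrArg abs (k t ht)).trans
    (ne.image_const _))).trans (csInf_singleton _)

theorem cuv_eq {i : τ.N} (hi : τ.pin = some i) (ho : τ.pout = none) (h3 : τ.p3 = none)
    (hw : ∀ a, β.wl a = none) {f : X.Fm} (hf : Cl X.I 2 univ f) :
    X.ip (cuv c t) f = X.ip (cuv c 0) f := by
  have h := (cuv_spec c t H).1
  have h0 := (cuv_spec c 0 H).1
  have hs := (τ.inn i).2 hi
  have e : cuv c t = cuv c 0 + dM X.I (pot c t - pot c 0) := funext fun x =>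
    Eq.trans (congrArg (fun a => Line51.Ln.F X.I ⟨c.m.det, a⟩ x) (add_sub_cancel _ _).symm)
      (h0.F_shift isOpen_univ (h.sa.sub h0.sa) trivial)
  have v : ∀ t, ∀ a, ∀ x ∈ (τ.nb i).U (1 / 2), β.e t a x = β.e 0 a x := fun t a x hx => by
    have k := fun t => β.lit t i (by rw [show τ.sw β.wl t i = 2 from v_end (by simp [hs])]; norm_num)
      a _ (NB.symm_mem (by norm_num) hx)
    simp only [show ∀ t, τ.sw β.wl t i = 2 from fun t => v_end (by simp [hs])] at k
    have := (k t).symm.trans (k 0)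
    rwa [(τ.nb i).k.right_inv ((τ.nb i).U_sub (d := 1 / 2) (by norm_num) hx)] at this
  have w : β.v t = β.v 0 := funext fun j => by simp [MT.sw, hw]
  rw [e, ip_add_d (h.sa.sub h0.sa) (.intro (τ.cpt (1 / 2)) fun x hx => ?_) hf]
  have k : x ∈ (τ.nb i).U (1 / 2) := by_contra fun k => hx fun j =>
    ⟨fun hj => by simpa [ho, h3] using (τ.out j).1 hj, fun hj => by
      obtain rfl : i = j := Option.some.inj (hi.symm.trans ((τ.inn j).1 hj))
      rw [mem_U hs, jm_in, not_lt] at k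
      linarith⟩
  have := Sob92.scs (I := X.I) (M := X.M)
  have k' := fm1_cn (m := c.m) (F := β.F t) (F' := β.F 0) ((τ.nb i).U_open (1 / 2)) (v t)
    (fun a x => c.al (β.v t) a x • (c.m.re.J * c.m.re.p x)) k
  refine sub_eq_zero.2 (k'.trans ?_)
  rw [w]
  rfl

theorem tf_cap (ens : Ens μ τ) (C : ℕ → ℝ) (e : (β.bs ens C).Tf) (f : X.Fm) (i : τ.N)
    (he : ∀ t, e.e t = cmp (β.e t) f) (hf : Cl X.I 2 univ f) (hi : τ.pin = some i)
    (ho : τ.pout = none) (h3 : τ.p3 = none) (hw : ∀ a, β.wl a = none) (hr : e.r i ≠ 0)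
    (hp : Per (c.ty i)) (hu : Gau (τ.nb i).e.A.Y.I (c.ec i).u) (R : ℝ) :
    {n | (c.gc ens C).pr n e ≤ R}.Finite := by
  have hs := (τ.inn i).2 hi
  have ok := fun j => (c.std j).ok
  have ad : ∀ a b, Sw88.per (c.ty i) (a + b) = Sw88.per (c.ty i) a + Sw88.per (c.ty i) b :=
    fun a b => by
      rw [Sw88.per, ← act_zpow (e := (c.ty i).en) (ok i) hu, Sw88.hol_yact (ok i) (gau_zpow hu b)
        (Pb50.Eqv.adm (ok i) Sw88.adm_zero (eqv_act (gau_zpow hu a) _))]
      rfl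
  have pe : ∀ n : ℤ, Sw88.per (c.ty i) n = n * Sw88.per (c.ty i) 1 := fun n => by
    simpa using map_zsmul (AddMonoidHom.mk' (Sw88.per (c.ty i)) ad) n 1
  have p1 : Sw88.per (c.ty i) 1 ≠ 0 := by
    simp only [Sw88.per, zpow_one]
    exact hp
  have inf : ∀ t j s, (c.P t).Inf j s ↔ j = i ∧ s = false := fun t j s => by
    refine ⟨fun ⟨K, hK, h⟩ => ?_, ?_⟩
    · have h := (nk_inf c t hK s).1 h
      cases s
      · exact ⟨Option.some.inj (((τ.inn j).1 h).symm.trans hi), rfl⟩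
      · simpa [ho, h3] using (τ.out j).1 h
    · rintro ⟨rfl, rfl⟩
      obtain ⟨K, hK, -⟩ := H.nk c t (c.ct t) j (by rw [v_end (by simp [hs])]; norm_num)
      exact ⟨K, hK, (nk_inf c t hK _).2 hs⟩
  have k : ∀ n : ℤ, ∀ t ∈ (c.gc ens C).dom, (c.gc ens C).wd t ((c.P t).bg.fc ((c.P t).base fun i _ =>
      En3.YC.act ((c.gc ens C).gau τ.pin n i) ⟨0, 0⟩)) (e.e t) =
        X.ip (cuv c 0) f - n * (e.r i * Sw88.per (c.ty i) 1 / 2) := fun n t ht => by
    refine (wd_base c t H ens C e f n he (fun j hj => ?_) ht).trans ?_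
    · obtain rfl := Option.some.inj (hi.symm.trans hj)
      exact hu
    rw [cuv_eq c t H hi ho h3 hw hf, Sw88.hs,
      Fintype.sum_eq_single i fun j hj => Finset.sum_eq_zero fun s _ =>
        if_neg fun h => hj ((inf t j s).1 h).1, Fintype.sum_bool, if_neg (by simp [inf]),
      if_pos ((inf t i _).2 ⟨rfl, rfl⟩), show (c.gc ens C).gau τ.pin n i = fun y => (c.ec i).u y ^ n from
        funext fun _ => if_pos hi]
    change _ + (0 + _ * _ * Sw88.per (c.ty i) n) / 2 = _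
    rw [pe n]
    simp only [M.pm]
    norm_num
    ring
  have ne : (c.gc ens C).dom.Nonempty := ⟨0, fun _ => ⟨le_rfl, fun _ => zero_le_one⟩⟩
  have k' : ∀ n : ℤ, (c.gc ens C).pr n e = _ := fun n => (congrArg sInf ((image_congr fun t ht =>
    congrArg abs (k n t ht)).trans (ne.image_const _))).trans (csInf_singleton _)
  have w : 0 < |e.r i * Sw88.per (c.ty i) 1 / 2| := abs_pos.2 (by positivity)
  generalize e.r i * Sw88.per (c.ty i) 1 / 2 = a at k' w
  generalize X.ip (cuv c 0) f = W at k'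
  refine (finite_Icc (-⌈(R + |W|) / |a|⌉) ⌈(R + |W|) / |a|⌉).subset fun n hn => abs_le.1 ?_
  have hn : (c.gc ens C).pr n e ≤ R := hn
  rw [k'] at hn
  rw [← Int.cast_le (R := ℝ), Int.cast_abs]
  refine le_trans ?_ (Int.le_ceil _)
  rw [le_div_iff₀ w, ← abs_mul]
  linarith [abs_sub_abs_le_abs_sub (n * a) W, abs_sub_comm (n * a) W]

end mc

/-- **E-TF** -/
theorem tf (H : PzStmt κ μ) : TfStmt κ μ where
  ex := tf_ex
  pr := ⟨1, one_pos, fun c ens C e f d y n a1 a2 a3 a4 a5 =>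
    (tf_pr c H ens C e f d y n a1 a2 a3 a4 a5).trans (one_mul _).symm⟩
  cap c := tf_cap c H

end Crest.Agent.X212.Nrm43
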